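import Mathlib
import Vale.Agent.P050.Lattice.Merge
import Vale.Agent.P050.TP2.Positive

/-!
# P050: Sidorenko's inequality for positive log-supermodular kernels on products of chains
-/

namespace Vale.P050.Lattice

open Finset Real Vale.P050.TP2

variable {A B E C D : Type} [Fintype A] [Fintype B] [Fintype E] [Fintype C] [Fintype D]
  [DecidableEq A] [DecidableEq B] [DecidableEq E] [DecidableEq C] [DecidableEq D]

/-- Weighted homomorphism sum into a kernel on two products of chains, in coordinates. -/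
noncomputable def homSumL {k l : ℕ} (a : E → A) (b : E → B)
    (μ : C → Fin (k + 1) → ℝ) (ν : D → Fin (l + 1) → ℝ)
    (W : (C → Fin (k + 1)) → (D → Fin (l + 1)) → ℝ) : ℝ :=
  ∑ x : A × C → Fin (k + 1), ∑ y : B × D → Fin (l + 1),
    (∏ i, μ i.2 (x i)) * (∏ j, ν j.2 (y j)) *
      ∏ e, W (fun c => x (a e, c)) (fun d => y (b e, d))

/-- Total weight of a kernel for product weights. -/
noncomputable def mass {k l : ℕ} (μ : C → Fin (k + 1) → ℝ) (ν : D → Fin (l + 1) → ℝ)
    (W : (C → Fin (k + 1)) → (D → Fin (l + 1)) → ℝ) : ℝ :=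
  ∑ x : C → Fin (k + 1), ∑ y : D → Fin (l + 1), (∏ c, μ c (x c)) * (∏ d, ν d (y d)) * W x y

theorem positive {k l : ℕ} (a : E → A) (b : E → B)
    (μ : C → Fin (k + 1) → ℝ) (ν : D → Fin (l + 1) → ℝ)
    (W : (C → Fin (k + 1)) → (D → Fin (l + 1)) → ℝ)
    (hμ : ∀ c s, 0 < μ c s) (hμ1 : ∀ c, ∑ s, μ c s = 1)
    (hν : ∀ d t, 0 < ν d t) (hν1 : ∀ d, ∑ t, ν d t = 1)
    (hW : ∀ x y, 0 < W x y) (hW2 : LSM2 W) :
    mass μ ν W ^ Fintype.card E ≤ homSumL a b μ ν W := by
  classical
  set P := mass μ ν W with hPdef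
  have hpm : ∀ x : C → Fin (k + 1), 0 < ∏ c, μ c (x c) := fun x => prod_pos fun c _ => hμ c _
  have hpn : ∀ y : D → Fin (l + 1), 0 < ∏ d, ν d (y d) := fun y => prod_pos fun d _ => hν d _
  have hP : 0 < P := sum_pos (fun x _ => sum_pos
    (fun y _ => mul_pos (mul_pos (hpm x) (hpn y)) (hW x y)) univ_nonempty) univ_nonempty
  let τ : (C → Fin (k + 1)) → (D → Fin (l + 1)) → ℝ :=
    fun x y => (∏ c, μ c (x c)) * (∏ d, ν d (y d)) * W x y / P
  have hτ : ∀ x y, 0 < τ x y := fun x y =>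
    div_pos (mul_pos (mul_pos (hpm x) (hpn y)) (hW x y)) hP
  have hτ1 : ∑ x, ∑ y, τ x y = 1 := by
    simp only [τ, ← sum_div]
    exact div_self hP.ne'
  let p : C → Fin (k + 1) → ℝ := fun c s => ∑ x with x c = s, ∑ y, τ x y
  let q : D → Fin (l + 1) → ℝ := fun d t => ∑ y with y d = t, ∑ x, τ x y
  have hp : ∀ c s, 0 < p c s := fun c s =>
    sum_pos (fun x _ => sum_pos (fun y _ => hτ x y) univ_nonempty) ⟨fun _ => s, by simp⟩
  have hq : ∀ d t, 0 < q d t := fun d t =>
    sum_pos (fun y _ => sum_pos (fun x _ => hτ x y) univ_nonempty) ⟨fun _ => t, by simp⟩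
  have hp1 : ∀ c, ∑ s, p c s = 1 := fun c => by
    simp only [p]; rw [sum_fiberwise]; exact hτ1
  have hq1 : ∀ d, ∑ t, q d t = 1 := fun d => by
    simp only [q]; rw [sum_fiberwise, sum_comm]; exact hτ1
  -- stage one
  let G1 : (E × C → Fin (k + 1)) → (B × D → Fin (l + 1)) → ℝ :=
    fun x y => (∏ j, ν j.2 (y j)) * ∏ e, W (fun c => x (e, c)) (fun d => y (b e, d))
  have hG1 : ∀ x y, 0 < G1 x y := fun x y =>
    mul_pos (prod_pos fun j _ => hν _ _) (prod_pos fun e _ => hW _ _)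
  have hG1m : LSM2 G1 := by
    intro x x' y y'
    simp only [G1]
    rw [mul_mul_mul_comm, mul_mul_mul_comm (∏ j : B × D, ν j.2 ((y ⊓ y') j)),
      prod_modular (fun j : B × D => ν j.2) y y']
    refine mul_le_mul_of_nonneg_left ?_
      (mul_pos (prod_pos fun j _ => hν _ _) (prod_pos fun j _ => hν _ _)).le
    simp only [← prod_mul_distrib]
    exact Finset.prod_le_prod (fun e _ => (mul_pos (hW _ _) (hW _ _)).le)
      (fun e _ => hW2 _ _ _ _)
  obtain ⟨u, hu, hbu⟩ := merge (fun i : A × C => μ i.2) (fun i : A × C => p i.2)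
    (fun i => hμ i.2) (fun i => hμ1 i.2) (fun i => hp i.2) (fun i => hp1 i.2)
    _ rfl (fun ec : E × C => (a ec.1, ec.2)) (fun x => ∑ y, G1 x y)
    (fun x => sum_pos (fun y _ => hG1 x y) univ_nonempty)
    (LSM2.sumOut (fun x y => (hG1 x y).le) hG1m)
  -- stage two
  let G2 : (E × D → Fin (l + 1)) → (E × C → Fin (k + 1)) → ℝ :=
    fun y x => (∏ i, μ i.2 (x i) * u i (x i)) *
      ∏ e, W (fun c => x (e, c)) (fun d => y (e, d))
  have hG2 : ∀ y x, 0 < G2 y x := fun y x =>
    mul_pos (prod_pos fun i _ => mul_pos (hμ _ _) (hu i _)) (prod_pos fun e _ => hW _ _)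
  have hG2m : LSM2 G2 := by
    intro y y' x x'
    simp only [G2]
    rw [mul_mul_mul_comm,
      mul_mul_mul_comm (∏ i : E × C, μ i.2 ((x ⊓ x') i) * u i ((x ⊓ x') i)),
      prod_modular (fun (i : E × C) s => μ i.2 s * u i s) x x']
    refine mul_le_mul_of_nonneg_left ?_
      (mul_pos (prod_pos fun i _ => mul_pos (hμ _ _) (hu i _))
        (prod_pos fun i _ => mul_pos (hμ _ _) (hu i _))).le
    simp only [← prod_mul_distrib]
    exact Finset.prod_le_prod (fun e _ => (mul_pos (hW _ _) (hW _ _)).le)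
      (fun e _ => hW2 _ _ _ _)
  obtain ⟨v, hv, hbv⟩ := merge (fun j : B × D => ν j.2) (fun j : B × D => q j.2)
    (fun j => hν j.2) (fun j => hν1 j.2) (fun j => hq j.2) (fun j => hq1 j.2)
    _ rfl (fun ed : E × D => (b ed.1, ed.2)) (fun y => ∑ x, G2 y x)
    (fun y => sum_pos (fun x _ => hG2 y x) univ_nonempty)
    (LSM2.sumOut (fun y x => (hG2 y x).le) hG2m)
  -- per-edge Jensen
  let T : E → (C → Fin (k + 1)) × (D → Fin (l + 1)) → ℝ := fun e z =>
    (∏ c, μ c (z.1 c) * u (e, c) (z.1 c)) * W z.1 z.2 * (∏ d, ν d (z.2 d) * v (e, d) (z.2 d))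
  have hedge : ∀ e, P * exp (∑ c, ∑ s, p c s * log (u (e, c) s)
      + ∑ d, ∑ t, q d t * log (v (e, d) t)) ≤ ∑ z, T e z := by
    intro e
    have hpos : ∀ z, 0 < T e z := fun z =>
      mul_pos (mul_pos (prod_pos fun c _ => mul_pos (hμ _ _) (hu _ _)) (hW _ _))
        (prod_pos fun d _ => mul_pos (hν _ _) (hv _ _))
    have hz1 : ∑ z : (C → Fin (k + 1)) × (D → Fin (l + 1)), τ z.1 z.2 = 1 := by
      rw [Fintype.sum_prod_type]; exact hτ1
    have hg := gibbs (fun z : (C → Fin (k + 1)) × (D → Fin (l + 1)) => τ z.1 z.2) (T e)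
      (fun z => hτ _ _) hz1 hpos
    have heq : ∀ z : (C → Fin (k + 1)) × (D → Fin (l + 1)),
        τ z.1 z.2 * (log (T e z) - log (τ z.1 z.2))
          = τ z.1 z.2 * log P
            + (τ z.1 z.2 * ∑ c, log (u (e, c) (z.1 c))
              + τ z.1 z.2 * ∑ d, log (v (e, d) (z.2 d))) := by
      intro z
      have h1 : log (τ z.1 z.2) = log (∏ c, μ c (z.1 c)) + log (∏ d, ν d (z.2 d))
          + log (W z.1 z.2) - log P := by
        simp only [τ]
        rw [log_div (mul_pos (mul_pos (hpm _) (hpn _)) (hW _ _)).ne' hP.ne',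
          log_mul (mul_pos (hpm _) (hpn _)).ne' (hW _ _).ne', log_mul (hpm _).ne' (hpn _).ne']
      have hu' : 0 < ∏ c, u (e, c) (z.1 c) := prod_pos fun c _ => hu _ _
      have hv' : 0 < ∏ d, v (e, d) (z.2 d) := prod_pos fun d _ => hv _ _
      simp only [T, prod_mul_distrib]
      rw [h1, log_mul (mul_pos (mul_pos (hpm _) hu') (hW _ _)).ne' (mul_pos (hpn _) hv').ne',
        log_mul (mul_pos (hpm _) hu').ne' (hW _ _).ne', log_mul (hpm _).ne' hu'.ne',
        log_mul (hpn _).ne' hv'.ne', log_prod (fun c _ => (hu (e, c) (z.1 c)).ne'),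
        log_prod (fun d _ => (hv (e, d) (z.2 d)).ne')]
      ring
    rw [Fintype.sum_congr _ _ heq, sum_add_distrib, ← sum_mul, hz1, one_mul, sum_add_distrib] at hg
    have e1 : ∑ z : (C → Fin (k + 1)) × (D → Fin (l + 1)),
        τ z.1 z.2 * ∑ c, log (u (e, c) (z.1 c)) = ∑ c, ∑ s, p c s * log (u (e, c) s) := by
      simp only [mul_sum]
      rw [sum_comm]
      refine sum_congr rfl fun c _ => ?_
      simp only [p, Fintype.sum_prod_type, sum_mul]
      rw [← sum_fiberwise univ (fun x : C → Fin (k + 1) => x c)]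
      refine sum_congr rfl fun s _ => sum_congr rfl fun x hx => ?_
      rw [(mem_filter.1 hx).2]
    have e2 : ∑ z : (C → Fin (k + 1)) × (D → Fin (l + 1)),
        τ z.1 z.2 * ∑ d, log (v (e, d) (z.2 d)) = ∑ d, ∑ t, q d t * log (v (e, d) t) := by
      simp only [mul_sum]
      rw [sum_comm]
      refine sum_congr rfl fun d _ => ?_
      rw [Fintype.sum_prod_type, sum_comm]
      simp only [q, sum_mul]
      rw [← sum_fiberwise univ (fun y : D → Fin (l + 1) => y d)]
      refine sum_congr rfl fun t _ => sum_congr rfl fun y hy => ?_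
      rw [(mem_filter.1 hy).2]
    rw [e1, e2] at hg
    rw [← exp_log hP, ← exp_add]
    exact (exp_le_exp.2 hg).trans (le_of_eq (exp_log (sum_pos (fun z _ => hpos z) univ_nonempty)))
  have hU : P ^ Fintype.card E * exp (∑ i : E × C, ∑ s, p i.2 s * log (u i s))
      * exp (∑ i : E × D, ∑ t, q i.2 t * log (v i t))
      ≤ ∑ y : E × D → Fin (l + 1), (∑ x, G2 y x) * ∏ i, (ν i.2 (y i) * v i (y i)) := by
    have h1 := Finset.prod_le_prod (s := (univ : Finset E)) (fun e _ => (mul_pos hP (exp_pos _)).le)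
      (fun e _ => hedge e)
    rw [prod_mul_distrib, prod_const, card_univ, ← exp_sum, sum_add_distrib, exp_add,
      Fintype.prod_sum, ← Equiv.sum_comp (Equiv.arrowProdEquivProdArrow E _ _).symm,
      Fintype.sum_prod_type, ← mul_assoc] at h1
    simp only [Fintype.sum_prod_type (f := fun i : E × C => ∑ s, p i.2 s * log (u i s)),
      Fintype.sum_prod_type (f := fun i : E × D => ∑ t, q i.2 t * log (v i t))]
    conv_rhs at h1 => rw [sum_comm]
    refine h1.trans (le_of_eq ?_)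
    rw [← Equiv.sum_comp (Equiv.curry E D (Fin (l + 1)))]
    refine sum_congr rfl fun y _ => ?_
    rw [sum_mul, ← Equiv.sum_comp (Equiv.curry E C (Fin (k + 1)))]
    refine sum_congr rfl fun x _ => ?_
    simp only [G2, Fintype.prod_prod_type, ← prod_mul_distrib]
    exact prod_congr rfl fun e _ => rfl
  have hz : ∑ z : B × D → Fin (l + 1), (∏ j, ν j.2 (z j))
        * ∑ x, G2 (z ∘ fun ed : E × D => (b ed.1, ed.2)) x
      = ∑ x : E × C → Fin (k + 1), (∑ y, G1 x y) * ∏ i, (μ i.2 (x i) * u i (x i)) := by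
    simp only [mul_sum, sum_mul]
    rw [sum_comm]
    refine sum_congr rfl fun x _ => sum_congr rfl fun z _ => ?_
    simp only [G1, G2, Function.comp]
    ring
  have hZ : ∑ z : A × C → Fin (k + 1), (∏ i, μ i.2 (z i))
        * ∑ y, G1 (z ∘ fun ec : E × C => (a ec.1, ec.2)) y
      = homSumL a b μ ν W := by
    simp only [homSumL, G1, mul_sum, Function.comp, mul_assoc]
  rw [hz] at hbv
  rw [hZ] at hbu
  set U := exp (∑ i : E × C, ∑ s, p i.2 s * log (u i s)) with hUdef
  set V := exp (∑ i : E × D, ∑ t, q i.2 t * log (v i t)) with hVdef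
  have h3 : P ^ Fintype.card E * U * V ≤ V * (U * homSumL a b μ ν W) :=
    hU.trans (hbv.trans (mul_le_mul_of_nonneg_left hbu (exp_pos _).le))
  refine le_of_mul_le_mul_right ?_ (mul_pos (exp_pos _) (exp_pos _) : 0 < U * V)
  calc P ^ Fintype.card E * (U * V) = P ^ Fintype.card E * U * V := by ring
    _ ≤ V * (U * homSumL a b μ ν W) := h3
    _ = homSumL a b μ ν W * (U * V) := by ring

end Vale.P050.Lattice
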