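import Mathlib
import Vale.Agent.P050.Lattice.Positive
import Vale.Agent.P050.TP2.Limit

/-!
# P050: log-supermodular kernels on products of chains, nonnegative case
-/

namespace Vale.P050.Lattice

open Finset Real Filter Topology Vale.P050.TP2

variable {C : Type} [Fintype C]

/-- Smoothing matrix on a product of chains. -/
noncomputable def smoothP {n : ℕ} (δ : ℝ) (x i : C → Fin n) : ℝ := ∏ c, smooth δ (x c) (i c)

lemma smoothP_pos {n : ℕ} {δ : ℝ} (hδ : 0 < δ) (x i : C → Fin n) : 0 < smoothP δ x i :=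
  prod_pos fun _ _ => smooth_pos hδ _ _

lemma smoothP_zero [DecidableEq C] {n : ℕ} (x i : C → Fin n) :
    smoothP 0 x i = if x = i then 1 else 0 := by
  by_cases h : x = i
  · simp [smoothP, h, smooth_zero]
  · rw [if_neg h]
    obtain ⟨c, hc⟩ := Function.ne_iff.1 h
    exact prod_eq_zero (mem_univ c) (by simp [smooth_zero, hc])

lemma smoothP_lsm {n : ℕ} {δ : ℝ} (h0 : 0 < δ) (h1 : δ ≤ 1) :
    LSM2 (smoothP δ : (C → Fin n) → (C → Fin n) → ℝ) := by
  intro x x' i i'
  simp only [smoothP, ← prod_mul_distrib]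
  exact Finset.prod_le_prod
    (fun c _ => (mul_pos (smooth_pos h0 _ _) (smooth_pos h0 _ _)).le)
    (fun c _ => smooth_lsm h0 h1 _ _ _ _)

variable [DecidableEq C] {D : Type} [Fintype D] [DecidableEq D]

/-- Smoothed kernel. -/
noncomputable def smoothWL {k l : ℕ} (δ : ℝ) (W : (C → Fin (k + 1)) → (D → Fin (l + 1)) → ℝ)
    (x : C → Fin (k + 1)) (y : D → Fin (l + 1)) : ℝ :=
  ∑ j, (∑ i, smoothP δ x i * W i j) * smoothP δ j y

theorem nonneg_case {A B E : Type} [Fintype A] [Fintype B] [Fintype E] [DecidableEq A]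
    [DecidableEq B] [DecidableEq E] {k l : ℕ} (a : E → A) (b : E → B)
    (μ : C → Fin (k + 1) → ℝ) (ν : D → Fin (l + 1) → ℝ)
    (W : (C → Fin (k + 1)) → (D → Fin (l + 1)) → ℝ)
    (hμ : ∀ c s, 0 ≤ μ c s) (hμ1 : ∀ c, ∑ s, μ c s = 1)
    (hν : ∀ d t, 0 ≤ ν d t) (hν1 : ∀ d, ∑ t, ν d t = 1)
    (hW : ∀ x y, 0 ≤ W x y) (hW2 : LSM2 W) :
    mass μ ν W ^ Fintype.card E ≤ homSumL a b μ ν W := by
  by_cases h0 : ∃ i j, 0 < W i j
  · obtain ⟨i0, j0, hij⟩ := h0
    have key : ∀ δ ∈ Set.Ioo (0 : ℝ) 1,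
        mass (fun c => mixW δ (μ c)) (fun d => mixW δ (ν d)) (smoothWL δ W) ^ Fintype.card E
          ≤ homSumL a b (fun c => mixW δ (μ c)) (fun d => mixW δ (ν d)) (smoothWL δ W) := by
      intro δ hδ
      have hA : ∀ (x i : C → Fin (k + 1)), 0 ≤ smoothP δ x i := fun x i =>
        (smoothP_pos hδ.1 x i).le
      have hB : ∀ (x i : D → Fin (l + 1)), 0 ≤ smoothP δ x i := fun x i =>
        (smoothP_pos hδ.1 x i).le
      refine positive a b _ _ _ (fun c => mixW_pos hδ.1 hδ.2.le (hμ c))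
        (fun c => mixW_sum δ (hμ1 c)) (fun d => mixW_pos hδ.1 hδ.2.le (hν d))
        (fun d => mixW_sum δ (hν1 d)) (fun x y => ?_) ?_
      · refine sum_pos' (fun j _ => mul_nonneg (sum_nonneg fun i _ =>
          mul_nonneg (hA _ _) (hW _ _)) (hB _ _)) ⟨j0, mem_univ _, ?_⟩
        refine mul_pos (sum_pos' (fun i _ => mul_nonneg (hA _ _) (hW _ _))
          ⟨i0, mem_univ _, mul_pos (smoothP_pos hδ.1 _ _) hij⟩) (smoothP_pos hδ.1 _ _)
      · exact lsm2_comp (fun x j => sum_nonneg fun i _ => mul_nonneg (hA _ _) (hW _ _))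
          hB (lsm2_comp hA hW (smoothP_lsm hδ.1 hδ.2.le) hW2)
          (smoothP_lsm hδ.1 hδ.2.le)
    have hc : Continuous fun δ : ℝ =>
        homSumL a b (fun c => mixW δ (μ c)) (fun d => mixW δ (ν d)) (smoothWL δ W)
          - mass (fun c => mixW δ (μ c)) (fun d => mixW δ (ν d)) (smoothWL δ W)
              ^ Fintype.card E := by
      unfold homSumL mass mixW smoothWL smoothP smooth
      fun_prop
    have e1 : ∀ {n : ℕ} (f : Fin (n + 1) → ℝ), mixW 0 f = f := by
      intro n f; funext s; simp [mixW]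
    have e2 : smoothWL 0 W = W := by
      funext x y; simp [smoothWL, smoothP_zero]
    have ht : Tendsto (fun δ : ℝ =>
          homSumL a b (fun c => mixW δ (μ c)) (fun d => mixW δ (ν d)) (smoothWL δ W)
          - mass (fun c => mixW δ (μ c)) (fun d => mixW δ (ν d)) (smoothWL δ W)
              ^ Fintype.card E)
        (𝓝[>] 0) (𝓝 (homSumL a b μ ν W - mass μ ν W ^ Fintype.card E)) := by
      have := (hc.tendsto 0).mono_left (nhdsWithin_le_nhds (s := Set.Ioi (0 : ℝ)))
      simpa only [e1, e2] using this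
    have : 0 ≤ homSumL a b μ ν W - mass μ ν W ^ Fintype.card E := by
      refine ge_of_tendsto ht ?_
      filter_upwards [Ioo_mem_nhdsGT (one_pos : (0 : ℝ) < 1)] with δ hδ
      exact sub_nonneg.2 (key δ hδ)
    linarith
  · push Not at h0
    have hz : ∀ x y, W x y = 0 := fun x y => le_antisymm (h0 x y) (hW x y)
    rcases Nat.eq_zero_or_pos (Fintype.card E) with hE | hE
    · have : IsEmpty E := Fintype.card_eq_zero_iff.1 hE
      simp only [hE, pow_zero, homSumL, univ_eq_empty, prod_empty, mul_one]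
      simp only [← mul_sum, ← Fintype.prod_sum (fun j : B × D => ν j.2), hν1, prod_const_one,
        mul_one, ← Fintype.prod_sum (fun i : A × C => μ i.2), hμ1, le_refl]
    · have : Nonempty E := Fintype.card_pos_iff.1 hE
      simp [hz, hE.ne', homSumL, mass]

end Vale.P050.Lattice
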