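import Mathlib
import Vale.Agent.P050.Lattice.Limit
import Vale.Agent.P050.TP2.Graph

/-!
# P050: targets that pull back to log-supermodular kernels on products of chains
-/

namespace Vale.P050.Lattice

open Finset Vale.P050.TP2

/-- Sums against product weights commute with pushing the weights forward. -/
lemma push {A Ω S : Type} [Fintype A] [DecidableEq A] [Fintype Ω] [Fintype S] [DecidableEq S]
    (e : Ω → S) (M : Ω → ℝ) (μ : S → ℝ) (he : ∀ s, μ s = ∑ x with e x = s, M x)
    (f : (A → S) → ℝ) :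
    ∑ x : A → S, (∏ i, μ (x i)) * f x = ∑ X : A → Ω, (∏ i, M (X i)) * f (e ∘ X) := by
  classical
  rw [← sum_fiberwise univ (fun X : A → Ω => e ∘ X)]
  refine sum_congr rfl fun x _ => ?_
  rw [show ∏ i, μ (x i) = ∏ i, ∑ ω with e ω = x i, M ω from prod_congr rfl fun i _ => he _,
    prod_univ_sum, sum_mul]
  refine sum_congr ?_ fun X hX => ?_
  · ext X
    simp [Fintype.mem_piFinset, funext_iff]
  · rw [(mem_filter.1 hX).2]

/-- `(μ, W)` pulls back, along parametrisations of rows and of columns by products of finite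
chains carrying product probability weights, to a log-supermodular kernel. -/
def PullbackLSM {S : Type} [Fintype S] [DecidableEq S] (μ : S → ℝ) (W : S → S → ℝ) : Prop :=
  ∃ (d d' k l : ℕ) (m : Fin d → Fin (k + 1) → ℝ) (n : Fin d' → Fin (l + 1) → ℝ)
    (eR : (Fin d → Fin (k + 1)) → S) (eC : (Fin d' → Fin (l + 1)) → S),
    (∀ c s, 0 ≤ m c s) ∧ (∀ c, ∑ s, m c s = 1) ∧ (∀ c s, 0 ≤ n c s) ∧ (∀ c, ∑ s, n c s = 1) ∧
    (∀ s, μ s = ∑ x with eR x = s, ∏ c, m c (x c)) ∧
    (∀ s, μ s = ∑ y with eC y = s, ∏ c, n c (y c)) ∧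
    ∀ x x' y y', W (eR x) (eC y) * W (eR x') (eC y') ≤
      W (eR (x ⊓ x')) (eC (y ⊓ y')) * W (eR (x ⊔ x')) (eC (y ⊔ y'))

theorem pullback_sidorenko {A B E S : Type} [Fintype A] [Fintype B] [Fintype E] [Fintype S]
    [DecidableEq A] [DecidableEq B] [DecidableEq E] [DecidableEq S] (a : E → A) (b : E → B)
    (μ : S → ℝ) (W : S → S → ℝ) (hW : ∀ s t, 0 ≤ W s t) (h : PullbackLSM μ W) :
    (∑ s, ∑ t, μ s * μ t * W s t) ^ Fintype.card E ≤ homSum a b μ μ W := by
  classical
  obtain ⟨d, d', k, l, m, n, eR, eC, hm, hm1, hn, hn1, hR, hC, hL⟩ := h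
  have key := nonneg_case a b m n (fun x y => W (eR x) (eC y)) hm hm1 hn hn1
    (fun _ _ => hW _ _) hL
  have e0 : ∑ s, ∑ t, μ s * μ t * W s t = mass m n (fun x y => W (eR x) (eC y)) := by
    unfold mass
    rw [← sum_fiberwise univ eR (fun x : Fin d → Fin (k + 1) =>
      ∑ y : Fin d' → Fin (l + 1), (∏ c, m c (x c)) * (∏ c, n c (y c)) * W (eR x) (eC y))]
    refine sum_congr rfl fun s _ => ?_
    rw [hR s]
    conv_rhs => rw [sum_comm, ← sum_fiberwise univ eC]
    refine sum_congr rfl fun t _ => ?_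
    rw [hC t]
    simp only [sum_mul, mul_sum]
    refine sum_congr rfl fun y hy => sum_congr rfl fun x hx => ?_
    rw [(mem_filter.1 hx).2, (mem_filter.1 hy).2]
  have e1 : homSum a b μ μ W = homSumL a b m n (fun x y => W (eR x) (eC y)) := by
    unfold homSum homSumL
    simp only [mul_assoc, ← mul_sum]
    rw [push eR (fun x => ∏ c, m c (x c)) μ hR,
      ← Equiv.sum_comp (Equiv.curry A (Fin d) (Fin (k + 1)))]
    refine sum_congr rfl fun X _ => ?_
    rw [push eC (fun y => ∏ c, n c (y c)) μ hC,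
      ← Equiv.sum_comp (Equiv.curry B (Fin d') (Fin (l + 1)))]
    rw [Fintype.prod_prod_type]
    refine congrArg₂ (· * ·) rfl (sum_congr rfl fun Y _ => ?_)
    rw [Fintype.prod_prod_type]
    rfl
  rw [e0, e1]
  exact key

/-- The same for simple bipartite graphs and symmetric targets. -/
theorem graph_pullback {V S : Type} [Fintype V] [DecidableEq V] [Fintype S] [DecidableEq S]
    (H : SimpleGraph V) [DecidableRel H.Adj] (c : V → Bool)
    (hc : ∀ u v, H.Adj u v → c u ≠ c v) (μ : S → ℝ) (W : S → S → ℝ)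
    (hW : ∀ s t, 0 ≤ W s t) (hsym : ∀ s t, W s t = W t s) (h : PullbackLSM μ W) :
    (∑ s, ∑ t, μ s * μ t * W s t) ^ H.edgeFinset.card
      ≤ ∑ x : V → S, (∏ v, μ (x v)) *
          ∏ e ∈ H.edgeFinset,
            Sym2.lift ⟨fun u v => W (x u) (x v), fun u v => hsym (x u) (x v)⟩ e := by
  classical
  let E := {p : {v // c v = true} × {v // ¬ c v = true} // H.Adj p.1.val p.2.val}
  let f : E → Sym2 V := fun p => s(p.val.1.val, p.val.2.val)
  have hf : Function.Injective f := by
    rintro ⟨⟨u, v⟩, _⟩ ⟨⟨u', v'⟩, _⟩ hh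
    simp only [f, Sym2.eq_iff] at hh
    rcases hh with ⟨h1, h2⟩ | ⟨h1, _⟩
    · exact Subtype.ext (Prod.ext (Subtype.ext h1) (Subtype.ext h2))
    · exact absurd (h1 ▸ u.2) v'.2
  have himg : H.edgeFinset = univ.image f := by
    ext e
    induction e using Sym2.ind with
    | _ u v =>
      simp only [SimpleGraph.mem_edgeFinset, SimpleGraph.mem_edgeSet, mem_image, mem_univ,
        true_and]
      constructor
      · intro hh
        by_cases hu : c u = true
        · exact ⟨⟨(⟨u, hu⟩, ⟨v, fun hv => hc u v hh (hu.trans hv.symm)⟩), hh⟩, rfl⟩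
        · have hv : c v = true := by
            have := hc u v hh
            cases hcu : c u <;> cases hcv : c v <;> simp_all
          exact ⟨⟨(⟨v, hv⟩, ⟨u, hu⟩), hh.symm⟩, Sym2.eq_swap⟩
      · rintro ⟨⟨⟨a, b⟩, hab⟩, hh⟩
        simp only [f, Sym2.eq_iff] at hh
        rcases hh with ⟨h1, h2⟩ | ⟨h1, h2⟩
        · subst h1; subst h2; exact hab
        · subst h1; subst h2; exact hab.symm
  have hcard : H.edgeFinset.card = Fintype.card E := by
    rw [himg, card_image_of_injective _ hf, card_univ]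
  have := pullback_sidorenko (E := E) (fun p => p.val.1) (fun p => p.val.2) μ W hW h
  rw [hcard]
  refine this.trans (le_of_eq ?_)
  simp only [homSum, ← Fintype.sum_prod_type']
  rw [← Equiv.sum_comp (Equiv.piEquivPiSubtypeProd (fun v => c v = true) (fun _ => S))]
  refine sum_congr rfl fun x _ => ?_
  rw [himg, prod_image hf.injOn,
    ← Fintype.prod_subtype_mul_prod_subtype (fun v => c v = true) (fun v => μ (x v))]
  simp [f, Equiv.piEquivPiSubtypeProd]

end Vale.P050.Lattice
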